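import Vale.Agent.P322.StarFin

/-!
# P322: the Courtade–Kumar inequality for crossover probabilities up to `11/100`
-/

namespace Vale.Agent.Results.P322.LowNoise

open Vale.Agent.P322

/-- For every Boolean function `f` on the cube, balanced or not, and every crossover probability
`ε ∈ [0,11/100]`, `I(f(X);Y) ≤ 1 - h₂(ε)`; coordinate functions give equality. -/
theorem result :
    (∀ (n : ℕ) (f : Cube n → Bool) (ε : ℝ), 0 ≤ ε → ε ≤ 11 / 100 →
      mutualInfo (jointLaw ε f) ≤ 1 - h2 ε) ∧
    (∀ (n : ℕ) (i : Fin n) (ε : ℝ), 0 ≤ ε → ε ≤ 11 / 100 →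
      mutualInfo (jointLaw ε (fun x : Cube n => x i)) = 1 - h2 ε) := by
  refine ⟨?_, ?_⟩
  · intro n f ε h0 h1
    have h := ck_low star_holds (ρ := 1 - 2 * ε) (by linarith) (by linarith) f
    have e : (1 - (1 - 2 * ε)) / 2 = ε := by ring
    rw [e] at h
    exact h
  · intro n i ε h0 h1
    exact mutualInfo_coord i h0 (by linarith)

end Vale.Agent.Results.P322.LowNoise
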